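import Mathlib

/-!
# P334: the greedy rule on instances of bounded spread

If every client sees all facilities within a factor `ρ` of each other (`d j i ≤ ρ * d j i'`), then every run of the
greedy rule (open `k` facilities one at a time, each time the one that minimises the cost of the enlarged set)
returns a set of cost at most `(1 + (ρ - 1) (1 - 1/k)^k) OPT_k ≤ (1 + (ρ - 1) / e) OPT_k`.
The triangle inequality is not used.
-/

namespace Vale.Agent.Results.P334.BoundedSpreadGreedy

open Finset

/-- `cost d S = ∑_j min_{i ∈ S} d j i`; the empty set (never used) gets the value `0`. -/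
noncomputable def cost {J F : Type} [Fintype J] (d : J → F → ℝ) (S : Finset F) : ℝ :=
  ∑ j, if h : S.Nonempty then S.inf' h (d j) else 0

/-- `g 0, …, g (k - 1)` is a run of the greedy rule: the facility opened in round `t` minimises the cost of
the set obtained by adding one facility to those opened before. -/
def IsGreedyRun {J F : Type} [Fintype J] [DecidableEq F] (d : J → F → ℝ) (k : ℕ) (g : ℕ → F) : Prop :=
  ∀ t < k, ∀ i : F,
    cost d (insert (g t) ((range t).image g)) ≤ cost d (insert i ((range t).image g))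

section aux

variable {J F : Type} [Fintype J] [DecidableEq F]

/-- current service distance, with a virtual value `v j` when nothing is open -/
noncomputable def cur (d : J → F → ℝ) (v : J → ℝ) (T : Finset F) (j : J) : ℝ :=
  if h : T.Nonempty then T.inf' h (d j) else v j

omit [Fintype J] in
theorem cur_insert (d : J → F → ℝ) (v : J → ℝ) (hv : ∀ j i, d j i ≤ v j) (T : Finset F) (i : F) (j : J) :
    cur d v (insert i T) j = min (d j i) (cur d v T j) := by
  unfold cur
  by_cases h : T.Nonempty
  · rw [dif_pos (insert_nonempty i T), dif_pos h, inf'_insert h]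
  · rw [dif_pos (insert_nonempty i T), dif_neg h]
    have hT : T = ∅ := not_nonempty_iff_eq_empty.mp h
    subst hT
    simp [hv j i]

omit [DecidableEq F] in
theorem cost_eq_cur (d : J → F → ℝ) (v : J → ℝ) (T : Finset F) (hT : T.Nonempty) :
    cost d T = ∑ j, cur d v T j := by
  unfold cost cur
  simp [hT]

omit [DecidableEq F] in
/-- one greedy step -/
theorem step (d : J → F → ℝ) (δ : J → ℝ) (S : Finset F) (hS : S.Nonempty) (k : ℕ) (hk : 1 ≤ k)
    (hSk : S.card ≤ k) (i0 : F)
    (hmin : ∀ i, ∑ j, min (d j i0) (δ j) ≤ ∑ j, min (d j i) (δ j)) :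
    ∑ j, min (d j i0) (δ j) - cost d S ≤ (1 - 1 / (k : ℝ)) * (∑ j, δ j - cost d S) := by
  have hcS : cost d S = ∑ j, S.inf' hS (d j) := by
    unfold cost
    simp [hS]
  have h1 : ∀ j, δ j - S.inf' hS (d j) ≤ ∑ i ∈ S, (δ j - min (d j i) (δ j)) := by
    intro j
    obtain ⟨i, hi, hij⟩ := exists_mem_eq_inf' hS (d j)
    have hnn : ∀ i' ∈ S, 0 ≤ δ j - min (d j i') (δ j) := fun i' _ => by
      have := min_le_right (d j i') (δ j)
      linarith
    have h2 := single_le_sum hnn hi
    have h3 : min (d j i) (δ j) ≤ d j i := min_le_left _ _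
    rw [hij]
    linarith
  have h2 : ∑ j, δ j - cost d S ≤ ∑ i ∈ S, (∑ j, δ j - ∑ j, min (d j i) (δ j)) := by
    rw [hcS, ← sum_sub_distrib]
    calc ∑ j, (δ j - S.inf' hS (d j)) ≤ ∑ j, ∑ i ∈ S, (δ j - min (d j i) (δ j)) :=
          sum_le_sum fun j _ => h1 j
      _ = ∑ i ∈ S, ∑ j, (δ j - min (d j i) (δ j)) := sum_comm
      _ = ∑ i ∈ S, (∑ j, δ j - ∑ j, min (d j i) (δ j)) := by
          refine sum_congr rfl fun i _ => ?_
          rw [sum_sub_distrib]
  have h3 : ∑ i ∈ S, (∑ j, δ j - ∑ j, min (d j i) (δ j))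
      ≤ (S.card : ℝ) * (∑ j, δ j - ∑ j, min (d j i0) (δ j)) := by
    rw [← nsmul_eq_mul]
    refine sum_le_card_nsmul _ _ _ fun i _ => ?_
    have := hmin i
    linarith
  have h4 : 0 ≤ ∑ j, δ j - ∑ j, min (d j i0) (δ j) := by
    rw [← sum_sub_distrib]
    refine sum_nonneg fun j _ => ?_
    have := min_le_right (d j i0) (δ j)
    linarith
  have h5 : (S.card : ℝ) * (∑ j, δ j - ∑ j, min (d j i0) (δ j))
      ≤ (k : ℝ) * (∑ j, δ j - ∑ j, min (d j i0) (δ j)) :=
    mul_le_mul_of_nonneg_right (by exact_mod_cast hSk) h4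
  have hkpos : (0 : ℝ) < k := by exact_mod_cast hk
  have h6 : ∑ j, δ j - cost d S ≤ (k : ℝ) * (∑ j, δ j - ∑ j, min (d j i0) (δ j)) := by linarith
  have h7 : (1 / (k : ℝ)) * (∑ j, δ j - cost d S) ≤ ∑ j, δ j - ∑ j, min (d j i0) (δ j) := by
    rw [one_div, inv_mul_le_iff₀ hkpos]
    exact h6
  linarith

end aux

theorem result {J F : Type} [Fintype J] [Fintype F] [DecidableEq F] (d : J → F → ℝ) (ρ : ℝ)
    (hρ1 : 1 ≤ ρ) (h0 : ∀ j i, 0 ≤ d j i) (hρ : ∀ j i i', d j i ≤ ρ * d j i')
    (k : ℕ) (hk : 1 ≤ k) (g : ℕ → F) (hg : IsGreedyRun d k g)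
    (S : Finset F) (hS : S.Nonempty) (hSk : S.card ≤ k) :
    ((range k).image g).Nonempty ∧ ((range k).image g).card ≤ k ∧
      cost d ((range k).image g) ≤ (1 + (ρ - 1) * (1 - 1 / (k : ℝ)) ^ k) * cost d S ∧
      cost d ((range k).image g) ≤ (1 + (ρ - 1) * Real.exp (-1)) * cost d S := by
  have hcS : cost d S = ∑ j, S.inf' hS (d j) := by
    unfold cost
    simp [hS]
  have hcS0 : 0 ≤ cost d S := by
    rw [hcS]
    refine sum_nonneg fun j _ => ?_
    obtain ⟨i, _, hij⟩ := exists_mem_eq_inf' hS (d j)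
    rw [hij]
    exact h0 j i
  -- the virtual initial service distance
  set v : J → ℝ := fun j => ρ * S.inf' hS (d j) with hv
  have hvd : ∀ j i, d j i ≤ v j := by
    intro j i
    obtain ⟨i', _, hij⟩ := exists_mem_eq_inf' hS (d j)
    simp only [hv, hij]
    exact hρ j i i'
  have hkpos : (0 : ℝ) < k := by exact_mod_cast hk
  have hq0 : 0 ≤ 1 - 1 / (k : ℝ) := by
    have : 1 / (k : ℝ) ≤ 1 := by
      rw [div_le_one hkpos]
      exact_mod_cast hk
    linarith
  -- the main induction
  have main : ∀ t, t ≤ k → ∑ j, cur d v ((range t).image g) j - cost d S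
      ≤ (1 - 1 / (k : ℝ)) ^ t * ((ρ - 1) * cost d S) := by
    intro t
    induction t with
    | zero =>
      intro _
      have : ∑ j, cur d v ((range 0).image g) j = ρ * cost d S := by
        rw [hcS, mul_sum]
        refine sum_congr rfl fun j _ => ?_
        simp [cur, hv]
      rw [this]
      simp only [pow_zero, one_mul]
      linarith
    | succ t ih =>
      intro ht
      have iht := ih (by omega)
      have himg : (range (t + 1)).image g = insert (g t) ((range t).image g) := by
        rw [range_add_one, image_insert]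
      have hstep := step d (cur d v ((range t).image g)) S hS k hk hSk (g t) (by
        intro i
        have h1 := hg t (by omega) i
        rw [cost_eq_cur d v _ (insert_nonempty _ _), cost_eq_cur d v _ (insert_nonempty _ _)] at h1
        simpa only [cur_insert d v hvd] using h1)
      rw [himg]
      simp only [cur_insert d v hvd]
      calc ∑ j, min (d j (g t)) (cur d v ((range t).image g) j) - cost d S
          ≤ (1 - 1 / (k : ℝ)) * (∑ j, cur d v ((range t).image g) j - cost d S) := hstep
        _ ≤ (1 - 1 / (k : ℝ)) * ((1 - 1 / (k : ℝ)) ^ t * ((ρ - 1) * cost d S)) :=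
            mul_le_mul_of_nonneg_left iht hq0
        _ = (1 - 1 / (k : ℝ)) ^ (t + 1) * ((ρ - 1) * cost d S) := by ring
  have hne : ((range k).image g).Nonempty := by
    refine ⟨g 0, mem_image.mpr ⟨0, mem_range.mpr (by omega), rfl⟩⟩
  have hmain := main k le_rfl
  rw [← cost_eq_cur d v _ hne] at hmain
  have hfirst : cost d ((range k).image g) ≤ (1 + (ρ - 1) * (1 - 1 / (k : ℝ)) ^ k) * cost d S := by
    linarith
  have hexp : (1 - 1 / (k : ℝ)) ^ k ≤ Real.exp (-1) := by
    have h1 : 1 - 1 / (k : ℝ) ≤ Real.exp (-(1 / (k : ℝ))) := by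
      have := Real.add_one_le_exp (-(1 / (k : ℝ)))
      linarith
    calc (1 - 1 / (k : ℝ)) ^ k ≤ Real.exp (-(1 / (k : ℝ))) ^ k := pow_le_pow_left₀ hq0 h1 k
      _ = Real.exp (-1) := by
          rw [← Real.exp_nat_mul]
          congr 1
          field_simp
  refine ⟨hne, ?_, hfirst, ?_⟩
  · calc ((range k).image g).card ≤ (range k).card := card_image_le
      _ = k := card_range k
  · refine hfirst.trans (mul_le_mul_of_nonneg_right ?_ hcS0)
    have : (ρ - 1) * (1 - 1 / (k : ℝ)) ^ k ≤ (ρ - 1) * Real.exp (-1) :=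
      mul_le_mul_of_nonneg_left hexp (by linarith)
    linarith

end Vale.Agent.Results.P334.BoundedSpreadGreedy
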