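import Vale.Agent.Results.P334.BoundedSpreadGreedy

/-!
# P334: the greedy rule against `OPT_k` on instances of bounded spread

Same mathematics as `BoundedSpreadGreedy`, stated with the quantities of the problem: greedy runs exist, and the
set opened by any greedy run is feasible and costs at most `(1 + (ρ - 1) / e) OPT_k`, where `OPT_k` is the least
cost of a nonempty set of at most `k` facilities.
-/

namespace Vale.Agent.Results.P334.GreedyVersusOpt

open Finset

/-- `cost d S = ∑_j min_{i ∈ S} d j i`; the empty set (never used) gets the value `0`. -/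
noncomputable def cost {J F : Type} [Fintype J] (d : J → F → ℝ) (S : Finset F) : ℝ :=
  ∑ j, if h : S.Nonempty then S.inf' h (d j) else 0

/-- `v` is the optimum `OPT_k`: the least cost of a nonempty set of at most `k` facilities. -/
def IsOpt {J F : Type} [Fintype J] (d : J → F → ℝ) (k : ℕ) (v : ℝ) : Prop :=
  IsLeast {c : ℝ | ∃ S : Finset F, S.Nonempty ∧ S.card ≤ k ∧ c = cost d S} v

/-- `g 0, …, g (k - 1)` is a run of the greedy rule: the facility opened in round `t` minimises the cost of
the set obtained by adding one facility to those opened before. -/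
def IsGreedyRun {J F : Type} [Fintype J] [DecidableEq F] (d : J → F → ℝ) (k : ℕ) (g : ℕ → F) : Prop :=
  ∀ t < k, ∀ i : F,
    cost d (insert (g t) ((range t).image g)) ≤ cost d (insert i ((range t).image g))

section aux

variable {J F : Type} [Fintype J] [Fintype F] [DecidableEq F] [Nonempty F]

theorem exists_best (d : J → F → ℝ) (A : Finset F) :
    ∃ i0 : F, ∀ i : F, cost d (insert i0 A) ≤ cost d (insert i A) := by
  obtain ⟨i0, _, h⟩ := exists_min_image (univ : Finset F) (fun i => cost d (insert i A))
    univ_nonempty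
  exact ⟨i0, fun i => h i (mem_univ i)⟩

/-- a best facility to add to `A` -/
noncomputable def best (d : J → F → ℝ) (A : Finset F) : F := Classical.choose (exists_best d A)

theorem best_spec (d : J → F → ℝ) (A : Finset F) (i : F) :
    cost d (insert (best d A) A) ≤ cost d (insert i A) := Classical.choose_spec (exists_best d A) i

/-- the sets opened by the greedy rule -/
noncomputable def opened (d : J → F → ℝ) : ℕ → Finset F
  | 0 => ∅
  | t + 1 => insert (best d (opened d t)) (opened d t)

theorem image_opened (d : J → F → ℝ) (t : ℕ) :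
    (range t).image (fun s => best d (opened d s)) = opened d t := by
  induction t with
  | zero => rfl
  | succ t ih =>
    rw [range_add_one, image_insert, ih]
    rfl

theorem exists_run (d : J → F → ℝ) (k : ℕ) : ∃ g : ℕ → F, IsGreedyRun d k g := by
  refine ⟨fun s => best d (opened d s), fun t _ i => ?_⟩
  rw [image_opened]
  exact best_spec d (opened d t) i

end aux

theorem result {J F : Type} [Fintype J] [Fintype F] [DecidableEq F] [Nonempty F] (d : J → F → ℝ)
    (ρ : ℝ) (hρ1 : 1 ≤ ρ) (h0 : ∀ j i, 0 ≤ d j i) (hρ : ∀ j i i', d j i ≤ ρ * d j i')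
    (k : ℕ) (hk : 1 ≤ k) :
    (∃ v : ℝ, IsOpt d k v) ∧ (∃ g : ℕ → F, IsGreedyRun d k g) ∧
      ∀ g : ℕ → F, IsGreedyRun d k g → ∀ v : ℝ, IsOpt d k v →
        ((range k).image g).Nonempty ∧ ((range k).image g).card ≤ k ∧
          v ≤ cost d ((range k).image g) ∧
          cost d ((range k).image g) ≤ (1 + (ρ - 1) * (1 - 1 / (k : ℝ)) ^ k) * v ∧
          cost d ((range k).image g) ≤ (1 + (ρ - 1) * Real.exp (-1)) * v := by
  refine ⟨?_, exists_run d k, ?_⟩
  · -- the optimum exists
    have hne : ((univ : Finset (Finset F)).filter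
        (fun S => S.Nonempty ∧ S.card ≤ k)).Nonempty := by
      obtain ⟨i⟩ := (inferInstance : Nonempty F)
      refine ⟨{i}, ?_⟩
      simp only [mem_filter, mem_univ, true_and, singleton_nonempty, card_singleton]
      exact hk
    obtain ⟨S, hS, hmin⟩ := exists_min_image _ (fun S => cost d S) hne
    simp only [mem_filter, mem_univ, true_and] at hS hmin
    refine ⟨cost d S, ⟨S, hS.1, hS.2, rfl⟩, ?_⟩
    rintro c ⟨T, hT1, hT2, rfl⟩
    exact hmin T ⟨hT1, hT2⟩
  · intro g hg v hv
    obtain ⟨⟨S, hS1, hS2, rfl⟩, hlow⟩ := hv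
    obtain ⟨h1, h2, h3, h4⟩ :=
      BoundedSpreadGreedy.result d ρ hρ1 h0 hρ k hk g hg S hS1 hS2
    exact ⟨h1, h2, hlow ⟨_, h1, h2, rfl⟩, h3, h4⟩

end Vale.Agent.Results.P334.GreedyVersusOpt
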